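import Vale.Agent.P207.Bridge

/-!
# P207: comparison of the Liouville averages of two bi-Lipschitz metrics

If `a² g ≤ g₁ ≤ b² g`, then the averages of the `g₀`-length over the `g₁`-unit vectors and over the
`g`-unit vectors differ at most by the factor `a⁻¹ (b/a)^(2n)`.
-/

open scoped Manifold ContDiff ENNReal Topology Pointwise
open Bundle MeasureTheory Set Filter

noncomputable section

namespace Vale.Agent.P207.R2.H327

open Vale.Agent.P207
open Vale.Agent.P255 (RMetric coefIn coefL)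

section Ball

variable {n : ℕ}

theorem ballB_subset_smul {B B₁ : EV n →L[ℝ] EV n →L[ℝ] ℝ} {a : ℝ} (ha : 0 < a)
    (h : ∀ v, a ^ 2 * B v v ≤ B₁ v v) : ballB B₁ ⊆ a⁻¹ • ballB B := by
  intro v hv
  have h1 : B₁ v v < 1 := hv
  refine ⟨a • v, ?_, ?_⟩
  · change B (a • v) (a • v) < 1
    have h2 := h v
    simp only [map_smul, smul_apply, smul_eq_mul]
    nlinarith
  · change a⁻¹ • a • v = v
    rw [smul_smul, inv_mul_cancel₀ ha.ne', one_smul]

theorem volume_ballB_le {B B₁ : EV n →L[ℝ] EV n →L[ℝ] ℝ} {a c : ℝ} (ha : 0 < a) (hc : LB B c)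
    (h : ∀ v, a ^ 2 * B v v ≤ B₁ v v) :
    volume.real (ballB B₁) ≤ a⁻¹ ^ n * volume.real (ballB B) := by
  have h1 : volume (a⁻¹ • ballB B) = ENNReal.ofReal (a⁻¹ ^ n) * volume (ballB B) := by
    rw [Measure.addHaar_smul, finrank_euclideanSpace_fin, abs_of_pos (by positivity)]
  have hfin := hc.volume_ballB_lt_top.ne
  have h2 : volume.real (a⁻¹ • ballB B) = a⁻¹ ^ n * volume.real (ballB B) := by
    rw [Measure.real, h1, ENNReal.toReal_mul, ENNReal.toReal_ofReal (by positivity)]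
    rfl
  rw [← h2]
  refine measureReal_mono (ballB_subset_smul ha h) ?_
  rw [h1]
  exact ENNReal.mul_ne_top ENNReal.ofReal_ne_top hfin

theorem integral_ballB_le {B B₁ : EV n →L[ℝ] EV n →L[ℝ] ℝ} {a c C : ℝ} (ha : 0 < a)
    (hc : LB B c) (h : ∀ v, a ^ 2 * B v v ≤ B₁ v v) {F : EV n → ℝ} (hF : Measurable F)
    (hF0 : ∀ v, 0 ≤ F v) (hFC : ∀ v, F v ≤ C) (hFh : ∀ v, F (a⁻¹ • v) = F v) :
    ∫ v in ballB B₁, F v ≤ a⁻¹ ^ n * ∫ v in ballB B, F v := by
  have h1 : volume (a⁻¹ • ballB B) = ENNReal.ofReal (a⁻¹ ^ n) * volume (ballB B) := by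
    rw [Measure.addHaar_smul, finrank_euclideanSpace_fin, abs_of_pos (by positivity)]
  have hfin := hc.volume_ballB_lt_top.ne
  have hfin2 : volume (a⁻¹ • ballB B) ≠ ⊤ := by
    rw [h1]
    exact ENNReal.mul_ne_top ENNReal.ofReal_ne_top hfin
  have hint : IntegrableOn F (a⁻¹ • ballB B) := by
    refine Measure.integrableOn_of_bounded (M := C) hfin2 hF.aestronglyMeasurable ?_
    exact Eventually.of_forall fun v => by rw [Real.norm_of_nonneg (hF0 v)]; exact hFC v
  have h2 : ∫ v in ballB B₁, F v ≤ ∫ v in a⁻¹ • ballB B, F v :=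
    setIntegral_mono_set hint (ae_of_all _ hF0)
      (HasSubset.Subset.eventuallyLE (ballB_subset_smul ha h))
  have h3 := Measure.setIntegral_comp_smul_of_pos (volume : Measure (EV n)) F (ballB B)
    (inv_pos.2 ha)
  rw [finrank_euclideanSpace_fin, smul_eq_mul] at h3
  simp only [hFh] at h3
  have h4 : (a⁻¹ ^ n) ≠ 0 := by positivity
  rw [h3, ← mul_assoc, mul_inv_cancel₀ h4, one_mul]
  exact h2

end Ball

variable {n : ℕ} {M : Type} [TopologicalSpace M] [ChartedSpace (EV n) M]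
  [IsManifold 𝓘(ℝ, EV n) ∞ M]

/-- `a² g ≤ g₁ ≤ b² g` -/
def Between (g g₁ : RMetric (EV n) M) (a b : ℝ) : Prop :=
  ∀ (x : M) (v : TangentSpace 𝓘(ℝ, EV n) x), a ^ 2 * g.inner x v v ≤ g₁.inner x v v ∧
    g₁.inner x v v ≤ b ^ 2 * g.inner x v v

theorem Between.symm {g g₁ : RMetric (EV n) M} {a b : ℝ} (ha : 0 < a) (hb : 0 < b)
    (h : Between g g₁ a b) : Between g₁ g b⁻¹ a⁻¹ := by
  intro x v
  obtain ⟨h1, h2⟩ := h x v
  constructor
  · rw [inv_pow, inv_mul_le_iff₀ (by positivity)]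
    exact h2
  · rw [inv_pow, ← div_eq_inv_mul, le_div_iff₀ (by positivity), mul_comm]
    exact h1

theorem radial_nrm (g g₀ : RMetric (EV n) M) (x : M) (v : EV n) :
    radial g (nrm g g₀) x v = Real.sqrt (innerB g₀ x v v) / Real.sqrt (innerB g x v v) := by
  unfold radial
  split_ifs with h
  · have h0 : v = 0 := h
    subst h0
    simp
  · unfold nrm
    change Real.sqrt (innerB g₀ x ((Real.sqrt (innerB g x v v))⁻¹ • v)
      ((Real.sqrt (innerB g x v v))⁻¹ • v)) = _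
    have hp : 0 < innerB g x v v := g.pos x v h
    have hs : 0 < Real.sqrt (innerB g x v v) := Real.sqrt_pos.2 hp
    have h1 : innerB g₀ x ((Real.sqrt (innerB g x v v))⁻¹ • v)
        ((Real.sqrt (innerB g x v v))⁻¹ • v) =
        ((Real.sqrt (innerB g x v v))⁻¹) ^ 2 * innerB g₀ x v v := by
      simp only [map_smul, smul_apply, smul_eq_mul]
      ring
    rw [h1, Real.sqrt_mul (sq_nonneg _), Real.sqrt_sq (inv_pos.2 hs).le, div_eq_inv_mul]

theorem radial_nrm_le {g g₁ : RMetric (EV n) M} (g₀ : RMetric (EV n) M) {a b : ℝ} (ha : 0 < a)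
    (h : Between g g₁ a b) (x : M) (v : EV n) :
    radial g₁ (nrm g₁ g₀) x v ≤ a⁻¹ * radial g (nrm g g₀) x v := by
  rw [radial_nrm, radial_nrm]
  rcases eq_or_ne v 0 with rfl | hv
  · simp
  have hp : 0 < innerB g x v v := g.pos x v hv
  have hp1 : 0 < innerB g₁ x v v := g₁.pos x v hv
  have hs := Real.sqrt_pos.2 hp
  have hs1 := Real.sqrt_pos.2 hp1
  have h1 : a * Real.sqrt (innerB g x v v) ≤ Real.sqrt (innerB g₁ x v v) := by
    apply Real.le_sqrt_of_sq_le
    rw [mul_pow, Real.sq_sqrt hp.le]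
    exact (h x v).1
  rw [← div_eq_inv_mul, div_div]
  refine div_le_div_of_nonneg_left (Real.sqrt_nonneg _) (by positivity) ?_
  rw [mul_comm]
  exact h1

theorem radial_nrm_smul (g g₀ : RMetric (EV n) M) (x : M) {c : ℝ} (hc : 0 < c) (v : EV n) :
    radial g (nrm g g₀) x (c • v : EV n) = radial g (nrm g g₀) x v := by
  have h1 : ∀ g' : RMetric (EV n) M, Real.sqrt (innerB g' x (c • v) (c • v)) =
      c * Real.sqrt (innerB g' x v v) := by
    intro g'
    have h2 : innerB g' x (c • v) (c • v) = c ^ 2 * innerB g' x v v := by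
      simp only [map_smul, smul_apply, smul_eq_mul]
      ring
    rw [h2, Real.sqrt_mul (sq_nonneg _), Real.sqrt_sq hc.le]
  rw [radial_nrm, radial_nrm, h1, h1, mul_div_mul_left _ _ hc.ne']

section Cpt

variable [CompactSpace M] [T2Space M]

theorem sphAvg_le_of_between {g g₁ : RMetric (EV n) M} (g₀ : RMetric (EV n) M) {a b : ℝ}
    (ha : 0 < a) (hb : 0 < b) (h : Between g g₁ a b) (x : M) :
    sphAvg g₁ (nrm g₁ g₀) x ≤ a⁻¹ * (b / a) ^ n * sphAvg g (nrm g g₀) x := by
  have := compactSpace_UT g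
  have := compactSpace_UT g₁
  obtain ⟨c, hc⟩ := innerB_LB g x
  obtain ⟨c₁, hc₁⟩ := innerB_LB g₁ x
  obtain ⟨C, hC0, hC⟩ := exists_abs_le (continuous_nrm g g₀)
  have hv1 : volume.real (ballB (innerB g x)) ≤ b ^ n * volume.real (ballB (innerB g₁ x)) := by
    have h1 := volume_ballB_le (B := innerB g₁ x) (B₁ := innerB g x) (a := b⁻¹) (inv_pos.2 hb)
      hc₁ (fun v => ((h.symm ha hb) x v).1)
    rwa [inv_inv] at h1
  have hr0 : ∀ v : EV n, 0 ≤ radial g (nrm g g₀) x v := fun v => by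
    rw [radial_nrm]; positivity
  have hI := integral_ballB_le (B := innerB g x) (B₁ := innerB g₁ x) (C := C) ha hc
    (fun v => (h x v).1) (F := fun v => radial g (nrm g g₀) x v)
    (measurable_radial g (continuous_nrm g g₀) x) hr0
    (fun v => (le_abs_self _).trans (abs_radial_le g hC hC0 x v))
    (fun v => radial_nrm_smul g g₀ x (inv_pos.2 ha) v)
  have hint₁ : IntegrableOn (fun v : EV n => radial g₁ (nrm g₁ g₀) x v) (ballB (innerB g₁ x)) :=
    integrableOn_radial (continuous_nrm g₁ g₀) x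
  have hint : IntegrableOn (fun v : EV n => a⁻¹ * radial g (nrm g g₀) x v)
      (ballB (innerB g₁ x)) := by
    refine Integrable.const_mul ?_ _
    refine Measure.integrableOn_of_bounded (M := C) hc₁.volume_ballB_lt_top.ne
      (measurable_radial g (continuous_nrm g g₀) x).aestronglyMeasurable ?_
    exact Eventually.of_forall fun v => abs_radial_le g hC hC0 x v
  have hI1 : ∫ v in ballB (innerB g₁ x), radial g₁ (nrm g₁ g₀) x v ≤
      a⁻¹ * (a⁻¹ ^ n * ∫ v in ballB (innerB g x), radial g (nrm g g₀) x v) := by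
    calc ∫ v in ballB (innerB g₁ x), radial g₁ (nrm g₁ g₀) x v
        ≤ ∫ v in ballB (innerB g₁ x), a⁻¹ * radial g (nrm g g₀) x v :=
          integral_mono hint₁ hint fun v => radial_nrm_le g₀ ha h x v
      _ = a⁻¹ * ∫ v in ballB (innerB g₁ x), radial g (nrm g g₀) x v := integral_const_mul _ _
      _ ≤ _ := mul_le_mul_of_nonneg_left hI (inv_pos.2 ha).le
  rw [sphAvg_eq, sphAvg_eq]
  unfold avgB
  have hV := hc.volume_real_pos
  have hV₁ := hc₁.volume_real_pos
  have hI0 : 0 ≤ ∫ v in ballB (innerB g x), radial g (nrm g g₀) x v := integral_nonneg hr0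
  set I := ∫ v in ballB (innerB g x), radial g (nrm g g₀) x v with hIdef
  set I₁ := ∫ v in ballB (innerB g₁ x), radial g₁ (nrm g₁ g₀) x v with hI₁def
  set V := volume.real (ballB (innerB g x)) with hVdef
  set V₁ := volume.real (ballB (innerB g₁ x)) with hV₁def
  have hbn : 0 < b ^ n := by positivity
  have h5 : V / b ^ n ≤ V₁ := by
    rw [div_le_iff₀ hbn, mul_comm]
    exact hv1
  calc I₁ / V₁ ≤ (a⁻¹ * (a⁻¹ ^ n * I)) / V₁ := div_le_div_of_nonneg_right hI1 hV₁.le
    _ ≤ (a⁻¹ * (a⁻¹ ^ n * I)) / (V / b ^ n) :=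
        div_le_div_of_nonneg_left (by positivity) (by positivity) h5
    _ = a⁻¹ * (b / a) ^ n * (I / V) := by
        rw [div_pow, inv_pow]
        field_simp

theorem coefL_between {g g₁ : RMetric (EV n) M} {a b : ℝ} (h : Between g g₁ a b) (c : M)
    {u : EV n} (hu : u ∈ (chartAt (EV n) c).target) (v : EV n) :
    a ^ 2 * coefL g c u v v ≤ coefL g₁ c u v v ∧ coefL g₁ c u v v ≤ b ^ 2 * coefL g c u v v := by
  set x := (chartAt (EV n) c).symm u with hx
  have hxs : x ∈ (chartAt (EV n) c).source := (chartAt (EV n) c).map_target hu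
  have hxu : chartAt (EV n) c x = u := (chartAt (EV n) c).right_inv hu
  have h1 := innerB_Dc g c hxs v v
  have h2 := innerB_Dc g₁ c hxs v v
  rw [hxu] at h1 h2
  rw [← h1, ← h2]
  exact h x _

theorem dens_le {g g₁ : RMetric (EV n) M} {a b : ℝ} (hb : 0 < b)
    (h : Between g g₁ a b) (c : M) {u : EV n} (hu : u ∈ (chartAt (EV n) c).target) :
    dens g₁ c u ≤ b ^ n * dens g c u := by
  obtain ⟨k, hk, hkb⟩ := ((mt g₁).isMetricOn c).lower_bound hu
  have hLB : LB (coefL g₁ c u) k := ⟨hk, hkb.self_of_nhds⟩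
  have h1 : volume.real (ballB (coefL g c u)) ≤ b ^ n * volume.real (ballB (coefL g₁ c u)) := by
    have h2 := volume_ballB_le (B := coefL g₁ c u) (B₁ := coefL g c u) (a := b⁻¹) (inv_pos.2 hb)
      hLB (fun v => by
        rw [inv_pow, inv_mul_le_iff₀ (by positivity)]
        exact (coefL_between h c hu v).2)
    rwa [inv_inv] at h2
  rw [volume_real_ballB (coefL_symm g c hu) (fun _ hv => coefL_pos g c hu hv),
    volume_real_ballB (coefL_symm g₁ c hu) (fun _ hv => coefL_pos g₁ c hu hv)] at h1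
  have hd := dens_pos g c hu
  have hd₁ := dens_pos g₁ c hu
  change volume.real (Metric.ball (0 : EV n) 1) / dens g c u ≤
    b ^ n * (volume.real (Metric.ball (0 : EV n) 1) / dens g₁ c u) at h1
  have hω := ball_pos n
  rw [mul_div_assoc', div_le_div_iff₀ hd hd₁] at h1
  have h3 : volume.real (Metric.ball (0 : EV n) 1) * dens g₁ c u ≤
      volume.real (Metric.ball (0 : EV n) 1) * (b ^ n * dens g c u) := by
    calc _ ≤ _ := h1
      _ = _ := by ring
  exact le_of_mul_le_mul_left h3 hω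

variable [MeasurableSpace M] [BorelSpace M]

theorem riemVol_le {g g₁ : RMetric (EV n) M} {a b : ℝ} (hb : 0 < b) (h : Between g g₁ a b)
    {μ μ₁ : Measure M} (hμ : IsRiemVol g μ) (hμ₁ : IsRiemVol g₁ μ₁) :
    μ₁ ≤ ENNReal.ofReal (b ^ n) • μ := by
  obtain ⟨k, c, hc⟩ := exists_chart_cover n M
  rw [Measure.le_iff]
  intro s hs
  have h2 : s = ⋃ i, s ∩ piece (n := n) c i := by
    rw [← inter_iUnion, iUnion_piece hc, inter_univ]
  have h3 : Pairwise (Function.onFun Disjoint fun i => s ∩ piece (n := n) c i) :=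
    fun i j hij => (disjoint_piece c hij).mono inter_subset_right inter_subset_right
  rw [h2, measure_iUnion h3 (fun i => hs.inter (measurableSet_piece c i)),
    measure_iUnion h3 (fun i => hs.inter (measurableSet_piece c i))]
  refine ENNReal.tsum_le_tsum fun i => ?_
  have hsub : s ∩ piece (n := n) c i ⊆ (chartAt (EV n) (c i)).source :=
    inter_subset_right.trans (piece_subset c i)
  have hms := hs.inter (measurableSet_piece (n := n) c i)
  rw [Measure.smul_apply, smul_eq_mul, isRiemVol_iff.1 hμ (c i) _ hms hsub,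
    isRiemVol_iff.1 hμ₁ (c i) _ hms hsub, ← lintegral_const_mul' _ _ ENNReal.ofReal_ne_top]
  refine setLIntegral_mono' (measurableSet_chart_image (c i) hms hsub) ?_
  rintro _ ⟨x, hx, rfl⟩
  have hu := (chartAt (EV n) (c i)).map_source (hsub hx)
  rw [← ENNReal.ofReal_mul (by positivity)]
  exact ENNReal.ofReal_le_ofReal (dens_le hb h (c i) hu)

/-- the comparison of the averages -/
theorem mean_le {g g₁ : RMetric (EV n) M} (hn : 1 ≤ n) (g₀ : RMetric (EV n) M) {a b : ℝ}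
    (ha : 0 < a) (hb : 0 < b) (h : Between g g₁ a b) {μ μ₁ : Measure M} {m : Measure (UT g)}
    {m₁ : Measure (UT g₁)} (hμ : IsRiemVol g μ) (hμ₁ : IsRiemVol g₁ μ₁) (hm : IsLiouville g μ m)
    (hm₁ : IsLiouville g₁ μ₁ m₁) :
    ∫ p, nrm g₁ g₀ p ∂m₁ ≤ a⁻¹ * (b / a) ^ (2 * n) * ∫ p, nrm g g₀ p ∂m := by
  have := hμ.isFiniteMeasure
  have := hμ₁.isFiniteMeasure
  have hV := hm.vol_pos
  have hV₁ := hm₁.vol_pos
  rw [hm.2 _ (continuous_nrm g g₀), hm₁.2 _ (continuous_nrm g₁ g₀)]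
  have hc₁ : Continuous (sphAvg g₁ (nrm g₁ g₀)) := continuous_sphAvg hn (continuous_nrm g₁ g₀)
  have hc : Continuous (sphAvg g (nrm g g₀)) := continuous_sphAvg hn (continuous_nrm g g₀)
  have hi₁ : Integrable (sphAvg g₁ (nrm g₁ g₀)) μ :=
    hc₁.integrable_of_hasCompactSupport (HasCompactSupport.of_compactSpace _)
  have hi : Integrable (sphAvg g (nrm g g₀)) μ :=
    hc.integrable_of_hasCompactSupport (HasCompactSupport.of_compactSpace _)
  have h0 : ∀ x, 0 ≤ sphAvg g (nrm g g₀) x := sphAvg_nonneg fun p => nrm_nonneg g g₀ p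
  have h0₁ : ∀ x, 0 ≤ sphAvg g₁ (nrm g₁ g₀) x := sphAvg_nonneg fun p => nrm_nonneg g₁ g₀ p
  have hle := riemVol_le hb h hμ hμ₁
  have hle' := riemVol_le (inv_pos.2 ha) (h.symm ha hb) hμ₁ hμ
  -- volumes
  have hvol : μ.real univ ≤ a⁻¹ ^ n * μ₁.real univ := by
    have h1 := hle' univ
    rw [Measure.smul_apply, smul_eq_mul] at h1
    have h2 := ENNReal.toReal_mono (ENNReal.mul_ne_top ENNReal.ofReal_ne_top
      (measure_ne_top μ₁ univ)) h1
    rwa [ENNReal.toReal_mul, ENNReal.toReal_ofReal (by positivity)] at h2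
  have hint : ∫ x, sphAvg g₁ (nrm g₁ g₀) x ∂μ₁ ≤
      b ^ n * ∫ x, sphAvg g₁ (nrm g₁ g₀) x ∂μ := by
    have h1 : ∫ x, sphAvg g₁ (nrm g₁ g₀) x ∂μ₁ ≤
        ∫ x, sphAvg g₁ (nrm g₁ g₀) x ∂(ENNReal.ofReal (b ^ n) • μ) :=
      integral_mono_measure hle (ae_of_all _ h0₁) (hi₁.smul_measure ENNReal.ofReal_ne_top)
    rwa [integral_smul_measure, ENNReal.toReal_ofReal (by positivity), smul_eq_mul] at h1
  have hint2 : ∫ x, sphAvg g₁ (nrm g₁ g₀) x ∂μ ≤
      a⁻¹ * (b / a) ^ n * ∫ x, sphAvg g (nrm g g₀) x ∂μ := by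
    rw [← integral_const_mul]
    exact integral_mono hi₁ (hi.const_mul _) fun x => sphAvg_le_of_between g₀ ha hb h x
  have hI0 : 0 ≤ ∫ x, sphAvg g (nrm g g₀) x ∂μ := integral_nonneg h0
  set I := ∫ x, sphAvg g (nrm g g₀) x ∂μ with hId
  set I₁ := ∫ x, sphAvg g₁ (nrm g₁ g₀) x ∂μ₁ with hI₁d
  set V := μ.real univ with hVd
  set V₁ := μ₁.real univ with hV₁d
  have han : 0 < a ^ n := by positivity
  have hI₁ : I₁ ≤ b ^ n * (a⁻¹ * (b / a) ^ n * I) :=
    hint.trans (mul_le_mul_of_nonneg_left hint2 (by positivity))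
  have hV₁' : a ^ n * V ≤ V₁ := by
    have h1 : a ^ n * V ≤ a ^ n * (a⁻¹ ^ n * V₁) := mul_le_mul_of_nonneg_left hvol han.le
    rwa [← mul_assoc, inv_pow, mul_inv_cancel₀ han.ne', one_mul] at h1
  calc I₁ / V₁ ≤ (b ^ n * (a⁻¹ * (b / a) ^ n * I)) / V₁ := div_le_div_of_nonneg_right hI₁ hV₁.le
    _ ≤ (b ^ n * (a⁻¹ * (b / a) ^ n * I)) / (a ^ n * V) :=
        div_le_div_of_nonneg_left (by positivity) (by positivity) hV₁'
    _ = a⁻¹ * (b / a) ^ (2 * n) * (I / V) := by
        rw [two_mul, pow_add, div_pow]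
        field_simp

/-- the averages over a fixed sphere bundle -/
theorem mean_le_two {g g₁ : RMetric (EV n) M} (g₀ : RMetric (EV n) M) {a b : ℝ}
    (hb : 0 < b) (h : Between g g₁ a b) {m₀ : Measure (UT g₀)} (hp : IsProbabilityMeasure m₀) :
    ∫ p, nrm g₀ g₁ p ∂m₀ ≤ b * ∫ p, nrm g₀ g p ∂m₀ := by
  have := compactSpace_UT g₀
  have hi₁ : Integrable (nrm g₀ g₁) m₀ := (continuous_nrm g₀ g₁).integrable_of_hasCompactSupport
    (HasCompactSupport.of_compactSpace _)
  have hi : Integrable (nrm g₀ g) m₀ := (continuous_nrm g₀ g).integrable_of_hasCompactSupport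
    (HasCompactSupport.of_compactSpace _)
  rw [← integral_const_mul]
  refine integral_mono hi₁ (hi.const_mul _) fun p => ?_
  change Real.sqrt _ ≤ b * Real.sqrt _
  have h2 : b * Real.sqrt (g.inner p.pt p.vec p.vec) =
      Real.sqrt (b ^ 2 * g.inner p.pt p.vec p.vec) := by
    rw [Real.sqrt_mul (sq_nonneg _), Real.sqrt_sq hb.le]
  refine le_trans (Real.sqrt_le_sqrt (h p.pt p.vec).2) h2.ge

end Cpt

end Vale.Agent.P207.R2.H327
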