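import Vale.Agent.P207.Bridge

/-!
# P207: the averages of conformal metrics
-/

open scoped Manifold ContDiff ENNReal Topology
open Bundle MeasureTheory Set Filter

noncomputable section

namespace Vale.Agent.P207.R2.H327

open Vale.Agent.P207
open Vale.Agent.P255 (RMetric coefIn coefL)

/-- Chebyshev's inequality for `f` and `f ^ k`, strict for nonconstant `f` -/
theorem chebyshev {X : Type} [TopologicalSpace X] [CompactSpace X] [MeasurableSpace X]
    [BorelSpace X] (μ : Measure X) [IsFiniteMeasure μ] [μ.IsOpenPosMeasure] {f : X → ℝ}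
    (hf : Continuous f) (hf0 : ∀ x, 0 < f x) (hne : ∃ x y, f x ≠ f y) {k : ℕ} (hk : 1 ≤ k) :
    (∫ x, f x ∂μ) * (∫ x, f x ^ k ∂μ) < μ.real univ * ∫ x, f x ^ (k + 1) ∂μ := by
  have hint : ∀ {h : X → ℝ}, Continuous h → Integrable h μ := fun hh =>
    hh.integrable_of_hasCompactSupport (HasCompactSupport.of_compactSpace _)
  obtain ⟨x₀, y₀, hxy⟩ := hne
  have : Nonempty X := ⟨x₀⟩
  have hV : 0 < μ.real univ := by
    refine ENNReal.toReal_pos ?_ (measure_ne_top μ _)
    exact (isOpen_univ.measure_pos μ univ_nonempty).ne'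
  set V := μ.real univ with hVd
  set s := (∫ x, f x ∂μ) / V with hs
  have hs0 : 0 ≤ s := div_nonneg (integral_nonneg fun x => (hf0 x).le) hV.le
  have hsV : ∫ x, f x ∂μ = s * V := by
    rw [hs, div_mul_cancel₀ _ hV.ne']
  have hex : ∃ x, f x ≠ s := by
    by_contra hcon
    push Not at hcon
    exact hxy ((hcon x₀).trans (hcon y₀).symm)
  have hcont : Continuous fun x => (f x - s) * (f x ^ k - s ^ k) :=
    (hf.sub continuous_const).mul ((hf.pow k).sub continuous_const)
  have hnn : ∀ x, 0 ≤ (f x - s) * (f x ^ k - s ^ k) := by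
    intro x
    rcases le_total s (f x) with h | h
    · exact mul_nonneg (sub_nonneg.2 h) (sub_nonneg.2 (pow_le_pow_left₀ hs0 h k))
    · exact mul_nonneg_of_nonpos_of_nonpos (sub_nonpos.2 h)
        (sub_nonpos.2 (pow_le_pow_left₀ (hf0 x).le h k))
  obtain ⟨x, hx⟩ := hex
  have hxne : (f x - s) * (f x ^ k - s ^ k) ≠ 0 := by
    refine mul_ne_zero (sub_ne_zero.2 hx) (sub_ne_zero.2 fun h => hx ?_)
    exact (pow_left_inj₀ (hf0 x).le hs0 (by omega)).1 h
  have hpos := hcont.integral_pos_of_hasCompactSupport_nonneg_nonzero (μ := μ)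
    (HasCompactSupport.of_compactSpace _) (fun x => hnn x) hxne
  have i1 : Integrable (fun x => f x ^ (k + 1)) μ := hint (hf.pow _)
  have i2 : Integrable (fun x => s * f x ^ k) μ := hint (continuous_const.mul (hf.pow _))
  have i3 : Integrable (fun x => s ^ k * f x) μ := hint (continuous_const.mul hf)
  have i4 : Integrable (fun _ : X => s ^ (k + 1)) μ := integrable_const _
  have hI : ∫ x, (f x - s) * (f x ^ k - s ^ k) ∂μ =
      ((∫ x, f x ^ (k + 1) ∂μ) - s * ∫ x, f x ^ k ∂μ) -
        (s ^ k * (∫ x, f x ∂μ) - V * s ^ (k + 1)) := by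
    calc ∫ x, (f x - s) * (f x ^ k - s ^ k) ∂μ =
        ∫ x, ((f x ^ (k + 1) - s * f x ^ k) - (s ^ k * f x - s ^ (k + 1))) ∂μ := by
          congr 1
          funext x
          ring
      _ = (∫ x, (f x ^ (k + 1) - s * f x ^ k) ∂μ) -
          ∫ x, (s ^ k * f x - s ^ (k + 1)) ∂μ := integral_sub (i1.sub i2) (i3.sub i4)
      _ = _ := by
          rw [integral_sub i1 i2, integral_sub i3 i4, integral_const_mul, integral_const_mul,
            integral_const, smul_eq_mul]
  have h1 : s ^ k * (s * V) - V * s ^ (k + 1) = 0 := by ring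
  rw [hI, hsV, h1, sub_zero, sub_pos] at hpos
  rw [hsV]
  calc s * V * ∫ x, f x ^ k ∂μ = V * (s * ∫ x, f x ^ k ∂μ) := by ring
    _ < V * ∫ x, f x ^ (k + 1) ∂μ := mul_lt_mul_of_pos_left hpos hV

variable {n : ℕ} {M : Type} [TopologicalSpace M] [ChartedSpace (EV n) M]
  [IsManifold 𝓘(ℝ, EV n) ∞ M]

/-- `g' = e^{2u} g` -/
def Conf (g g' : RMetric (EV n) M) (u : M → ℝ) : Prop :=
  ∀ (x : M) (v w : TangentSpace 𝓘(ℝ, EV n) x),
    g'.inner x v w = Real.exp (2 * u x) * g.inner x v w

theorem exp_two_mul (t : ℝ) : Real.exp (2 * t) = Real.exp t ^ 2 := by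
  rw [← Real.exp_nat_mul]
  norm_num

theorem nrm_conf {g g' : RMetric (EV n) M} {u : M → ℝ} (h : Conf g g' u) (p : UT g) :
    nrm g g' p = Real.exp (u p.pt) := by
  unfold nrm
  have h1 : g.inner p.pt p.vec p.vec = 1 := p.2
  rw [h p.pt p.vec p.vec, h1, mul_one, exp_two_mul, Real.sqrt_sq (Real.exp_pos _).le]

theorem nrm_conf' {g g' : RMetric (EV n) M} {u : M → ℝ} (h : Conf g g' u) (p : UT g') :
    nrm g' g p = (Real.exp (u p.pt))⁻¹ := by
  unfold nrm
  have h1 : g'.inner p.pt p.vec p.vec = 1 := p.2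
  have he := Real.exp_pos (u p.pt)
  rw [h p.pt p.vec p.vec, exp_two_mul] at h1
  have h2 : g.inner p.pt p.vec p.vec = ((Real.exp (u p.pt))⁻¹) ^ 2 := by
    rw [inv_pow]
    exact eq_inv_of_mul_eq_one_right h1
  rw [h2, Real.sqrt_sq (inv_pos.2 he).le]

theorem coefL_conf {g g' : RMetric (EV n) M} {u : M → ℝ} (h : Conf g g' u) (c : M)
    {y : EV n} (hy : y ∈ (chartAt (EV n) c).target) :
    coefL g' c y = Real.exp (2 * u ((chartAt (EV n) c).symm y)) • coefL g c y := by
  set x := (chartAt (EV n) c).symm y with hx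
  have hxs : x ∈ (chartAt (EV n) c).source := (chartAt (EV n) c).map_target hy
  have hxu : chartAt (EV n) c x = y := (chartAt (EV n) c).right_inv hy
  ext v w
  have h1 := innerB_Dc g c hxs v w
  have h2 := innerB_Dc g' c hxs v w
  rw [hxu] at h1 h2
  rw [← h2]
  change _ = Real.exp (2 * u x) * coefL g c y v w
  rw [← h1]
  exact h x _ _

theorem dens_conf {g g' : RMetric (EV n) M} {u : M → ℝ} (h : Conf g g' u) (c : M)
    {y : EV n} (hy : y ∈ (chartAt (EV n) c).target) :
    dens g' c y = Real.exp (u ((chartAt (EV n) c).symm y)) ^ n * dens g c y := by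
  unfold dens
  rw [coefL_conf h c hy]
  set E := Real.exp (u ((chartAt (EV n) c).symm y)) with hE
  have h1 : gramE (Real.exp (2 * u ((chartAt (EV n) c).symm y)) • coefL g c y) =
      (E ^ 2) • gramE (coefL g c y) := by
    ext i j
    simp only [gramE, Matrix.of_apply, Matrix.smul_apply, smul_apply, smul_eq_mul]
    rw [exp_two_mul]
  rw [h1, Matrix.det_smul, Fintype.card_fin, Real.sqrt_mul (by positivity), ← pow_mul,
    mul_comm 2 n, pow_mul, Real.sqrt_sq (by positivity)]

section Cpt

variable [CompactSpace M] [T2Space M]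

theorem sphAvg_base (hn : 1 ≤ n) (g : RMetric (EV n) M) (f : M → ℝ) (x : M) :
    sphAvg g (fun p => f p.pt) x = f x := by
  have h1 : sphAvg g (fun p => f p.pt) x = sphAvg g (f x • fun _ => (1 : ℝ)) x := by
    rw [sphAvg_eq, sphAvg_eq]
    congr 1
    funext v
    unfold radial
    split_ifs with h
    · rfl
    · change f x = f x * 1
      rw [mul_one]
  rw [h1, sphAvg_smul, sphAvg_one hn, mul_one]

variable [MeasurableSpace M] [BorelSpace M]

theorem isRiemVol_conf {g g' : RMetric (EV n) M} {u : M → ℝ} (hu : Continuous u)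
    (h : Conf g g' u) {μ : Measure M} (hμ : IsRiemVol g μ) :
    IsRiemVol g' (μ.withDensity fun x => ENNReal.ofReal (Real.exp (u x) ^ n)) := by
  rw [isRiemVol_iff]
  intro a s hs hsub
  have hfm : Measurable fun x => ENNReal.ofReal (Real.exp (u x) ^ n) :=
    ((Real.continuous_exp.comp hu).pow n).measurable.ennreal_ofReal
  rw [withDensity_apply _ hs]
  have h1 := hμ.lintegral_source a
    (h := s.indicator fun x => ENNReal.ofReal (Real.exp (u x) ^ n)) (hfm.indicator hs)
  have h2 : ∫⁻ x in (chartAt (EV n) a).source,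
      s.indicator (fun x => ENNReal.ofReal (Real.exp (u x) ^ n)) x ∂μ =
      ∫⁻ x in s, ENNReal.ofReal (Real.exp (u x) ^ n) ∂μ := by
    rw [lintegral_indicator hs, Measure.restrict_restrict hs, inter_eq_self_of_subset_left hsub]
  rw [← h2, h1]
  set e := chartAt (EV n) a with he
  have him : MeasurableSet (e '' s) := measurableSet_chart_image a hs hsub
  have hsubT : e '' s ⊆ e.target := by
    rintro _ ⟨x, hx, rfl⟩
    exact e.map_source (hsub hx)
  have h3 : ∫⁻ y in e '' s, ENNReal.ofReal (dens g' a y) =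
      ∫⁻ y in e.target, (e '' s).indicator (fun y => ENNReal.ofReal (dens g' a y)) y := by
    rw [lintegral_indicator him, Measure.restrict_restrict him, inter_eq_self_of_subset_left hsubT]
  rw [h3]
  refine setLIntegral_congr_fun e.open_target.measurableSet fun y hy => ?_
  by_cases hys : y ∈ e '' s
  · obtain ⟨x, hx, rfl⟩ := hys
    have hx' : e.symm (e x) = x := e.left_inv (hsub hx)
    simp only [hx']
    rw [indicator_of_mem hx, indicator_of_mem (mem_image_of_mem _ hx),
      dens_conf h a (e.map_source (hsub hx)), ← ENNReal.ofReal_mul (by positivity)]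
    rw [← he, hx']
  · have hns : e.symm y ∉ s := fun hc => hys ⟨e.symm y, hc, e.right_inv hy⟩
    rw [indicator_of_notMem hns, indicator_of_notMem hys, zero_mul]

/-- the two averages of conformal metrics -/
theorem mean_conf (hn : 1 ≤ n) {g g' : RMetric (EV n) M} {u : M → ℝ} (hu : Continuous u)
    (h : Conf g g' u) {μ μ' : Measure M} {m : Measure (UT g)} {m' : Measure (UT g')}
    (hμ : IsRiemVol g μ) (hμ' : IsRiemVol g' μ') (hm : IsLiouville g μ m)
    (hm' : IsLiouville g' μ' m') :
    ∫ p, nrm g g' p ∂m = (∫ x, Real.exp (u x) ∂μ) / μ.real univ ∧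
    ∫ p, nrm g' g p ∂m' = (∫ x, Real.exp (u x) ^ (n - 1) ∂μ) / ∫ x, Real.exp (u x) ^ n ∂μ := by
  have hfin := hμ.isFiniteMeasure
  have hE : Continuous fun x => Real.exp (u x) := Real.continuous_exp.comp hu
  have hE0 : ∀ x, Real.exp (u x) ≠ 0 := fun x => (Real.exp_pos _).ne'
  constructor
  · rw [hm.2 _ (continuous_nrm g g')]
    congr 1
    refine integral_congr_ae (ae_of_all _ fun x => ?_)
    have h1 : nrm g g' = fun p => Real.exp (u p.pt) := funext fun p => nrm_conf h p
    rw [h1]
    exact sphAvg_base hn g (fun x => Real.exp (u x)) x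
  · have hμ'' := hμ'.unique (isRiemVol_conf hu h hμ)
    have hfm : Measurable fun x => ENNReal.ofReal (Real.exp (u x) ^ n) :=
      (hE.pow n).measurable.ennreal_ofReal
    have hcv : ∀ f : M → ℝ, ∫ x, f x ∂μ' = ∫ x, Real.exp (u x) ^ n * f x ∂μ := by
      intro f
      rw [hμ'', integral_withDensity_eq_integral_toReal_smul hfm
        (ae_of_all _ fun x => ENNReal.ofReal_lt_top)]
      refine integral_congr_ae (ae_of_all _ fun x => ?_)
      simp only [smul_eq_mul]
      rw [ENNReal.toReal_ofReal (by positivity)]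
    rw [hm'.2 _ (continuous_nrm g' g)]
    congr 1
    · have h1 : ∀ x, sphAvg g' (nrm g' g) x = (Real.exp (u x))⁻¹ := by
        intro x
        have h1 : nrm g' g = fun p => (Real.exp (u p.pt))⁻¹ := funext fun p => nrm_conf' h p
        rw [h1]
        exact sphAvg_base hn g' (fun x => (Real.exp (u x))⁻¹) x
      simp only [h1]
      rw [hcv]
      refine integral_congr_ae (ae_of_all _ fun x => ?_)
      obtain ⟨k, rfl⟩ : ∃ k, n = k + 1 := ⟨n - 1, by omega⟩
      simp only [Nat.add_sub_cancel]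
      rw [pow_succ, mul_assoc, mul_inv_cancel₀ (hE0 x), mul_one]
    · have h2 := hcv fun _ => 1
      simp only [integral_const, smul_eq_mul, mul_one] at h2
      exact h2

/-- the product of the averages is less than one for conformal, not homothetic metrics -/
theorem mean_conf_lt (hn : 2 ≤ n) {g g' : RMetric (EV n) M} {u : M → ℝ} (hu : Continuous u)
    (h : Conf g g' u) (hne : ∃ x y, u x ≠ u y) {μ μ' : Measure M} {m : Measure (UT g)}
    {m' : Measure (UT g')} (hμ : IsRiemVol g μ) (hμ' : IsRiemVol g' μ') (hm : IsLiouville g μ m)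
    (hm' : IsLiouville g' μ' m') :
    (∫ p, nrm g g' p ∂m) * (∫ p, nrm g' g p ∂m') < 1 := by
  have hfin := hμ.isFiniteMeasure
  have hop := hμ.isOpenPosMeasure
  have hE : Continuous fun x => Real.exp (u x) := Real.continuous_exp.comp hu
  obtain ⟨h1, h2⟩ := mean_conf (by omega) hu h hμ hμ' hm hm'
  have hV := hm.vol_pos
  have hne' : ∃ x y, Real.exp (u x) ≠ Real.exp (u y) := by
    obtain ⟨x, y, hxy⟩ := hne
    exact ⟨x, y, fun he => hxy (Real.exp_injective he)⟩
  have hc := chebyshev μ hE (fun x => Real.exp_pos _) hne' (k := n - 1) (by omega)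
  have hk : n - 1 + 1 = n := by omega
  rw [hk] at hc
  have hpos : 0 < ∫ x, Real.exp (u x) ^ n ∂μ := by
    obtain ⟨x, -, -⟩ := hne
    exact (hE.pow n).integral_pos_of_hasCompactSupport_nonneg_nonzero (μ := μ)
      (HasCompactSupport.of_compactSpace _) (fun x => by positivity) (x := x)
      (pow_ne_zero _ (Real.exp_pos _).ne')
  rw [h1, h2, div_mul_div_comm, div_lt_one (by positivity)]
  exact hc

end Cpt

end Vale.Agent.P207.R2.H327
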