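import Vale.Agent.P207.FDefs

/-!
# P207: definitions used by the theorem on neighbourhoods of conformal and Kähler classes

The metrics, the geodesic flow, the Liouville measure, the entropies and the average
`meanLen e g₀ g₁ = A(g₀,g₁) = ∫ |v|_{g₁} dm(v)`, with `m` the Liouville measure of `g₀`, are those
of `Vale.Agent.P207.FDefs`.
-/

open scoped Manifold ContDiff ENNReal
open MeasureTheory Set

noncomputable section

namespace Vale.Agent.P207F.Near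

open Vale.Agent.P255 (RMetric innerAt)

variable {E : Type} [NormedAddCommGroup E] [NormedSpace ℝ E] {M : Type} [TopologicalSpace M]
  [ChartedSpace E M] [IsManifold 𝓘(ℝ, E) ∞ M]

/-- `a² g ≤ g₁ ≤ b² g` on all tangent vectors. -/
def Between (g g₁ : RMetric E M) (a b : ℝ) : Prop :=
  ∀ (x : M) (v : TangentSpace 𝓘(ℝ, E) x), a ^ 2 * innerAt g x v v ≤ innerAt g₁ x v v ∧
    innerAt g₁ x v v ≤ b ^ 2 * innerAt g x v v

variable [MeasureSpace E] [MeasurableSpace M] {n : ℕ}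

/-- `q(g₀,g) = A(g₀,g) A(g,g₀)`. -/
def prodLen (e : Fin n → E) (g₀ g : RMetric E M) : ℝ :=
  meanLen e g₀ g * meanLen e g g₀

/-- `g = e^{2u} g₀` for a continuous function `u` which is not constant, and
`l = (Vol(g) / Vol(g₀))^{1/n}`. -/
def InConfClass (e : Fin n → E) (g₀ g : RMetric E M) (l : ℝ) : Prop :=
  (∃ u : M → ℝ, Continuous u ∧ (∃ x y, u x ≠ u y) ∧ IsConf g₀ g u) ∧
    l = ((vol e g).real univ / (vol e g₀).real univ) ^ (n : ℝ)⁻¹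

omit [MeasureSpace E] [MeasurableSpace M] in
/-- `g₀` and `g` are Kähler metrics for the same complex structure `J`, their Kähler classes
satisfy `[ω] = c [ω₀]`, `g ≠ c g₀`, and `l = √c`. -/
def InKaehlerClass (g₀ g : RMetric E M) (l : ℝ) : Prop :=
  ∃ (J : EndField E M) (c : ℝ), IsKaehler g₀ J ∧ IsKaehler g J ∧ SameClass g₀ g J c ∧
    ¬ IsMul g₀ g c ∧ l = Real.sqrt c

/-- `B(g₀,g) B(g,g₀) ≤ 1` for `B(g₀,g) = ∫ |v|²_g dm(v)`, with `m` the Liouville measure of `g₀`,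
`g` is not a multiple of `g₀`, and `l = √B(g₀,g)`. -/
def InSqClass (e : Fin n → E) (g₀ g : RMetric E M) (l : ℝ) : Prop :=
  meanSq e g₀ g * meanSq e g g₀ ≤ 1 ∧ (¬ ∃ c : ℝ, IsMul g₀ g c) ∧ l = Real.sqrt (meanSq e g₀ g)

/-- `g` belongs to one of the three classes, with the scale `l`. -/
def InClass (e : Fin n → E) (g₀ g : RMetric E M) (l : ℝ) : Prop :=
  InConfClass e g₀ g l ∨ InKaehlerClass g₀ g l ∨ InSqClass e g₀ g l

/-- If `a² g ≤ g₁ ≤ b² g`, then `A(g₀,g₁) ≤ b A(g₀,g)`, `A(g₁,g₀) ≤ (b^(n-1) / a^n) A(g,g₀)` and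
`q(g₀,g₁) ≤ (b/a)^n q(g₀,g)`. -/
def Control (e : Fin n → E) (g₀ g g₁ : RMetric E M) : Prop :=
  ∀ a b : ℝ, 0 < a → 0 < b → Between g g₁ a b →
    meanLen e g₀ g₁ ≤ b * meanLen e g₀ g ∧
    meanLen e g₁ g₀ ≤ b ^ (n - 1) / a ^ n * meanLen e g g₀ ∧
    prodLen e g₀ g₁ ≤ (b / a) ^ n * prodLen e g₀ g

/-- If `g = e^{2u} g₀`, `u` continuous, then
`q(g₀,g) = (∫ e^u) (∫ e^{(n-1)u}) / (Vol ∫ e^{nu})`, the integrals and the volume being those of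
the Riemannian volume of `g₀`. -/
def ConfFormula (e : Fin n → E) (g₀ g : RMetric E M) : Prop :=
  ∀ u : M → ℝ, Continuous u → IsConf g₀ g u →
    prodLen e g₀ g =
      (∫ x, Real.exp (u x) ∂vol e g₀) * (∫ x, Real.exp ((n - 1) * u x) ∂vol e g₀) /
        ((vol e g₀).real univ * ∫ x, Real.exp (n * u x) ∂vol e g₀)

/-- `A(g₀,g) < l`, `A(g,g₀) < 1/l` and `q(g₀,g) < 1`. -/
def Short (e : Fin n → E) (g₀ g : RMetric E M) (l : ℝ) : Prop :=
  0 < l ∧ meanLen e g₀ g < l ∧ meanLen e g g₀ < l⁻¹ ∧ prodLen e g₀ g < 1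

/-- `h_L(g₀) h_L(g₁) ≤ q(g₀,g₁) h_top(g₀) h_top(g₁)`. -/
def EntropyBound (e : Fin n → E) (g₀ g₁ : RMetric E M) : Prop :=
  hLiou e g₀ * hLiou e g₁ ≤ ENNReal.ofReal (prodLen e g₀ g₁) * (hTop g₀ * hTop g₁)

/-- If `a² g ≤ g₁ ≤ b² g` and `(b/a)^n q(g₀,g) < 1`, then
`h_L(g₁) ≤ (b/a)^n q(g₀,g) h_top(g₁)`, `h_L(g₁) < h_top(g₁)` and `g₁` is not locally
symmetric. -/
def Gap (e : Fin n → E) (g₀ g g₁ : RMetric E M) : Prop :=
  ∀ a b : ℝ, 0 < a → 0 < b → Between g g₁ a b → (b / a) ^ n * prodLen e g₀ g < 1 →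
    hLiou e g₁ ≤ ENNReal.ofReal ((b / a) ^ n * prodLen e g₀ g) * hTop g₁ ∧
    hLiou e g₁ < hTop g₁ ∧ ¬ LocSymmetric g₁

/-- `l h_L(g₁) < h_top(g₀) < l h_top(g₁)`, `h_L(g₁) < h_top(g₁)` and `g₁` is not locally
symmetric. -/
def Separated (e : Fin n → E) (g₀ g₁ : RMetric E M) (l : ℝ) : Prop :=
  ENNReal.ofReal l * hLiou e g₁ < hTop g₀ ∧ hTop g₀ < ENNReal.ofReal l * hTop g₁ ∧
    hLiou e g₁ < hTop g₁ ∧ ¬ LocSymmetric g₁

end Vale.Agent.P207F.Near
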