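import Vale.Agent.P207.R2.H327.Comp
import Vale.Agent.P207.R2.H327.Conf

/-!
# P207: the gap between the entropies
-/

open scoped Manifold ContDiff ENNReal Topology
open Bundle MeasureTheory Set Filter

noncomputable section

namespace Vale.Agent.P207.R2.H327

open Vale.Agent.P207
open Vale.Agent.P255 (RMetric)

variable {n : ℕ} {M : Type} [TopologicalSpace M] [ChartedSpace (EV n) M]
  [IsManifold 𝓘(ℝ, EV n) ∞ M] [CompactSpace M] [T2Space M] [MeasurableSpace M] [BorelSpace M]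

/-- the gap between the entropies -/
theorem gap [ConnectedSpace M] (hn : 1 ≤ n) {g₀ g₁ : RMetric (EV n) M}
    (hN₀ : NegCurvature g₀) (hN₁ : NegCurvature g₁)
    {φ₀ : ℝ → UT g₀ → UT g₀} {φ₁ : ℝ → UT g₁ → UT g₁} {μ₀ μ₁ : Measure M}
    {m₀ : Measure (UT g₀)} {m₁ : Measure (UT g₁)}
    (hφ₀ : IsGeoFlow g₀ φ₀) (hφ₁ : IsGeoFlow g₁ φ₁)
    (hμ₀ : IsRiemVol g₀ μ₀) (hμ₁ : IsRiemVol g₁ μ₁)
    (hm₀ : IsLiouville g₀ μ₀ m₀) (hm₁ : IsLiouville g₁ μ₁ m₁)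
    (e₀ : ksEntropy m₀ (φ₀ 1) = topEntropy (φ₀ 1)) :
    ksEntropy m₁ (φ₁ 1) ≤
      ENNReal.ofReal ((∫ p, nrm g₀ g₁ p ∂m₀) * (∫ p, nrm g₁ g₀ p ∂m₁)) * topEntropy (φ₁ 1) := by
  obtain ⟨hS₀, hA₀, hF₀⟩ := compare hn hN₀ hN₁ hφ₀ hφ₁ hμ₀ hm₀
  obtain ⟨hS₁, hA₁, hF₁⟩ := compare hn hN₁ hN₀ hφ₁ hφ₀ hμ₁ hm₁
  rw [← e₀] at hS₁
  have h1 := hS₁.trans (mul_le_mul_right hS₀ _)
  rw [← mul_assoc, ← ENNReal.ofReal_mul hA₁.le, mul_comm (∫ p, nrm g₁ g₀ p ∂m₁)] at h1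
  exact h1

/-- strict inequality of the entropies from a gap -/
theorem lt_of_gap [ConnectedSpace M] (hn : 2 ≤ n) {g₁ : RMetric (EV n) M}
    (hN₁ : NegCurvature g₁) {φ₁ : ℝ → UT g₁ → UT g₁} {μ₁ : Measure M} {m₁ : Measure (UT g₁)}
    (hφ₁ : IsGeoFlow g₁ φ₁) (hμ₁ : IsRiemVol g₁ μ₁) (hm₁ : IsLiouville g₁ μ₁ m₁) {q : ℝ}
    (hq : q < 1) (h : ksEntropy m₁ (φ₁ 1) ≤ ENNReal.ofReal q * topEntropy (φ₁ 1)) :
    ksEntropy m₁ (φ₁ 1) < topEntropy (φ₁ 1) ∧ ¬ LocSymmetric g₁ := by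
  have h1 : ksEntropy m₁ (φ₁ 1) < topEntropy (φ₁ 1) := by
    obtain ⟨-, -, hF₁⟩ := compare (by omega) hN₁ hN₁ hφ₁ hφ₁ hμ₁ hm₁
    rcases eq_or_ne (topEntropy (φ₁ 1)) ⊤ with ht | ht
    · rw [ht]
      exact lt_top_iff_ne_top.2 hF₁
    · have hpos := topEntropy_pos hn hφ₁ hN₁
      have h2 : ENNReal.ofReal q < 1 := by
        rw [← not_le, ENNReal.one_le_ofReal, not_le]
        exact hq
      have h3 : ENNReal.ofReal q * topEntropy (φ₁ 1) < 1 * topEntropy (φ₁ 1) :=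
        ENNReal.mul_lt_mul_left hpos.ne' ht h2
      rw [one_mul] at h3
      exact h.trans_lt h3
  exact ⟨h1, fun hL => h1.ne (ksEntropy_eq_of_locSymmetric hn hφ₁ hμ₁ hm₁ hN₁ hL)⟩

end Vale.Agent.P207.R2.H327
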