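import Vale.Agent.P207.R2.H327.Comp
import Vale.Agent.P207.R2.H327.Lin

/-!
# P207: the sharp comparison of the averages of two bilipschitz metrics
-/

open scoped Manifold ContDiff ENNReal Topology
open Bundle MeasureTheory Set Filter

noncomputable section

namespace Vale.Agent.P207.R2.H327

open Vale.Agent.P207
open Vale.Agent.P255 (RMetric coefIn coefL)

variable {n : ℕ} {M : Type} [TopologicalSpace M] [ChartedSpace (EV n) M]
  [IsManifold 𝓘(ℝ, EV n) ∞ M]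

theorem sphAvg_chart_nrm (g g₀ : RMetric (EV n) M) (c : M) {x : M}
    (hx : x ∈ (chartAt (EV n) c).source) :
    sphAvg g (nrm g g₀) x =
      (∫ v in ballB (coefL g c (chartAt (EV n) c x)),
        Real.sqrt (coefL g₀ c (chartAt (EV n) c x) v v) /
          Real.sqrt (coefL g c (chartAt (EV n) c x) v v)) /
        volume.real (ballB (coefL g c (chartAt (EV n) c x))) := by
  rw [sphAvg_chart g _ c hx]
  unfold avgB
  congr 1
  refine integral_congr_ae (ae_of_all _ fun v => ?_)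
  simp only
  rw [radial_nrm, innerB_Dc g₀ c hx, innerB_Dc g c hx]

section Cpt

variable [CompactSpace M] [T2Space M]

theorem dens_sphAvg_le (hn : 1 ≤ n) {g g₁ : RMetric (EV n) M} (g₀ : RMetric (EV n) M) {a b : ℝ}
    (hb : 0 < b) (h : Between g g₁ a b) (c : M) {u : EV n}
    (hu : u ∈ (chartAt (EV n) c).target) :
    sphAvg g₁ (nrm g₁ g₀) ((chartAt (EV n) c).symm u) * dens g₁ c u ≤
      b ^ (n - 1) * (sphAvg g (nrm g g₀) ((chartAt (EV n) c).symm u) * dens g c u) := by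
  have hx := (chartAt (EV n) c).map_target hu
  have hxu := (chartAt (EV n) c).right_inv hu
  rw [sphAvg_chart_nrm g g₀ c hx, sphAvg_chart_nrm g₁ g₀ c hx, hxu]
  obtain ⟨k, hk, hkb⟩ := ((mt g).isMetricOn c).lower_bound hu
  have hLB : LB (coefL g c u) k := ⟨hk, hkb.self_of_nhds⟩
  obtain ⟨k₁, hk₁, hkb₁⟩ := ((mt g₁).isMetricOn c).lower_bound hu
  have hLB₁ : LB (coefL g₁ c u) k₁ := ⟨hk₁, hkb₁.self_of_nhds⟩
  obtain ⟨D, hD, hB⟩ := exists_sqrt_form (coefL_symm g₀ c hu) (fun _ hv => coefL_pos g₀ c hu hv)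
  have hN : ∀ v, Real.sqrt (coefL g₀ c u v v) = ‖D v‖ := by
    intro v
    rw [hB]
    change Real.sqrt (inner ℝ (D v) (D v)) = _
    rw [real_inner_self_eq_norm_sq, Real.sqrt_sq (norm_nonneg _)]
  have h1 := lin_core hn (coefL_symm g c hu) (coefL_symm g₁ c hu) hLB hLB₁
    (N := fun v => Real.sqrt (coefL g₀ c u v v))
    (by simp only [hN]; exact continuous_norm.comp D.continuous)
    (by intro v w; simp only [hN]; rw [map_add]; exact norm_add_le _ _)
    (by intro r v; simp only [hN]; rw [map_smul, norm_smul, Real.norm_eq_abs]) hb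
    (fun v => (coefL_between h c hu v).2)
  rw [volume_real_ballB (coefL_symm g c hu) (fun _ hv => coefL_pos g c hu hv),
    volume_real_ballB (coefL_symm g₁ c hu) (fun _ hv => coefL_pos g₁ c hu hv)] at h1 ⊢
  have hd := dens_pos g c hu
  have hd₁ := dens_pos g₁ c hu
  have hW := ball_pos n
  change (∫ v in ballB (coefL g₁ c u), Real.sqrt (coefL g₀ c u v v) /
      Real.sqrt (coefL g₁ c u v v)) * (volume.real (Metric.ball (0 : EV n) 1) / dens g c u) ^ 2 ≤
    b ^ (n - 1) * (∫ v in ballB (coefL g c u), Real.sqrt (coefL g₀ c u v v) /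
      Real.sqrt (coefL g c u v v)) * (volume.real (Metric.ball (0 : EV n) 1) / dens g₁ c u) ^ 2
    at h1
  change (∫ v in ballB (coefL g₁ c u), Real.sqrt (coefL g₀ c u v v) /
      Real.sqrt (coefL g₁ c u v v)) / (volume.real (Metric.ball (0 : EV n) 1) / dens g₁ c u) *
      dens g₁ c u ≤
    b ^ (n - 1) * ((∫ v in ballB (coefL g c u), Real.sqrt (coefL g₀ c u v v) /
      Real.sqrt (coefL g c u v v)) / (volume.real (Metric.ball (0 : EV n) 1) / dens g c u) *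
      dens g c u)
  set I₁ := ∫ v in ballB (coefL g₁ c u), Real.sqrt (coefL g₀ c u v v) /
      Real.sqrt (coefL g₁ c u v v)
  set I := ∫ v in ballB (coefL g c u), Real.sqrt (coefL g₀ c u v v) /
      Real.sqrt (coefL g c u v v)
  set W := volume.real (Metric.ball (0 : EV n) 1)
  set d := dens g c u
  set d₁ := dens g₁ c u
  have hW2 : 0 < W ^ 2 := by positivity
  have h2 : I₁ * d₁ ^ 2 ≤ b ^ (n - 1) * I * d ^ 2 := by
    rw [div_pow, div_pow, mul_div_assoc', mul_div_assoc', div_le_div_iff₀ (by positivity)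
      (by positivity)] at h1
    have h3 : W ^ 2 * (I₁ * d₁ ^ 2) ≤ W ^ 2 * (b ^ (n - 1) * I * d ^ 2) := by
      calc _ = I₁ * W ^ 2 * d₁ ^ 2 := by ring
        _ ≤ _ := h1
        _ = _ := by ring
    exact le_of_mul_le_mul_left h3 hW2
  calc I₁ / (W / d₁) * d₁ = (I₁ * d₁ ^ 2) / W := by field_simp
    _ ≤ (b ^ (n - 1) * I * d ^ 2) / W := div_le_div_of_nonneg_right h2 hW.le
    _ = b ^ (n - 1) * (I / (W / d) * d) := by field_simp

variable [MeasurableSpace M] [BorelSpace M]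

theorem lintegral_piece_le {g g₁ : RMetric (EV n) M} {μ μ₁ : Measure M} (hμ : IsRiemVol g μ)
    (hμ₁ : IsRiemVol g₁ μ₁) (c : M) {s : Set M} (hs : MeasurableSet s)
    (hsub : s ⊆ (chartAt (EV n) c).source) {F F₁ : M → ℝ≥0∞} (hF : Measurable F)
    (hF₁ : Measurable F₁) {k : ℝ≥0∞} (hk : k ≠ ⊤)
    (hle : ∀ u ∈ (chartAt (EV n) c).target, F₁ ((chartAt (EV n) c).symm u) *
      ENNReal.ofReal (dens g₁ c u) ≤
        k * (F ((chartAt (EV n) c).symm u) * ENNReal.ofReal (dens g c u))) :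
    ∫⁻ x in s, F₁ x ∂μ₁ ≤ k * ∫⁻ x in s, F x ∂μ := by
  have key : ∀ {g' : RMetric (EV n) M} {μ' : Measure M} {G : M → ℝ≥0∞}, IsRiemVol g' μ' →
      Measurable G → ∫⁻ x in s, G x ∂μ' = ∫⁻ u in (chartAt (EV n) c).target,
        s.indicator G ((chartAt (EV n) c).symm u) * ENNReal.ofReal (dens g' c u) := by
    intro g' μ' G hμ' hG
    rw [← hμ'.lintegral_source c (h := s.indicator G) (hG.indicator hs), lintegral_indicator hs,
      Measure.restrict_restrict hs, inter_eq_self_of_subset_left hsub]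
  rw [key hμ hF, key hμ₁ hF₁, ← lintegral_const_mul' _ _ hk]
  refine setLIntegral_mono' (chartAt (EV n) c).open_target.measurableSet fun u hu => ?_
  by_cases hus : (chartAt (EV n) c).symm u ∈ s
  · rw [indicator_of_mem hus, indicator_of_mem hus]
    exact hle u hu
  · rw [indicator_of_notMem hus, indicator_of_notMem hus]
    simp

theorem integral_sphAvg_le (hn : 1 ≤ n) {g g₁ : RMetric (EV n) M} (g₀ : RMetric (EV n) M)
    {a b : ℝ} (hb : 0 < b) (h : Between g g₁ a b) {μ μ₁ : Measure M} (hμ : IsRiemVol g μ)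
    (hμ₁ : IsRiemVol g₁ μ₁) :
    ∫ x, sphAvg g₁ (nrm g₁ g₀) x ∂μ₁ ≤ b ^ (n - 1) * ∫ x, sphAvg g (nrm g g₀) x ∂μ := by
  have := hμ.isFiniteMeasure
  have := hμ₁.isFiniteMeasure
  have hc₁ : Continuous (sphAvg g₁ (nrm g₁ g₀)) := continuous_sphAvg hn (continuous_nrm g₁ g₀)
  have hc : Continuous (sphAvg g (nrm g g₀)) := continuous_sphAvg hn (continuous_nrm g g₀)
  have hi₁ : Integrable (sphAvg g₁ (nrm g₁ g₀)) μ₁ :=
    hc₁.integrable_of_hasCompactSupport (HasCompactSupport.of_compactSpace _)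
  have hi : Integrable (sphAvg g (nrm g g₀)) μ :=
    hc.integrable_of_hasCompactSupport (HasCompactSupport.of_compactSpace _)
  have h0 : ∀ x, 0 ≤ sphAvg g (nrm g g₀) x := sphAvg_nonneg fun p => nrm_nonneg g g₀ p
  have h0₁ : ∀ x, 0 ≤ sphAvg g₁ (nrm g₁ g₀) x := sphAvg_nonneg fun p => nrm_nonneg g₁ g₀ p
  obtain ⟨k, c, hcov⟩ := exists_chart_cover n M
  have hkey : ∫⁻ x, ENNReal.ofReal (sphAvg g₁ (nrm g₁ g₀) x) ∂μ₁ ≤
      ENNReal.ofReal (b ^ (n - 1)) * ∫⁻ x, ENNReal.ofReal (sphAvg g (nrm g g₀) x) ∂μ := by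
    rw [← setLIntegral_univ (μ := μ₁), ← setLIntegral_univ (μ := μ),
      ← iUnion_piece (n := n) hcov,
      lintegral_iUnion (fun i => measurableSet_piece c i) (disjoint_piece c),
      lintegral_iUnion (fun i => measurableSet_piece c i) (disjoint_piece c),
      ← ENNReal.tsum_mul_left]
    refine ENNReal.tsum_le_tsum fun i => ?_
    refine lintegral_piece_le hμ hμ₁ (c i) (measurableSet_piece c i) (piece_subset c i)
      hc.measurable.ennreal_ofReal hc₁.measurable.ennreal_ofReal ENNReal.ofReal_ne_top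
      fun u hu => ?_
    rw [← ENNReal.ofReal_mul (h0₁ _), ← ENNReal.ofReal_mul (h0 _),
      ← ENNReal.ofReal_mul (by positivity)]
    exact ENNReal.ofReal_le_ofReal (dens_sphAvg_le hn g₀ hb h (c i) hu)
  rw [← ofReal_integral_eq_lintegral_ofReal hi₁ (ae_of_all _ h0₁),
    ← ofReal_integral_eq_lintegral_ofReal hi (ae_of_all _ h0),
    ← ENNReal.ofReal_mul (by positivity)] at hkey
  exact (ENNReal.ofReal_le_ofReal_iff (mul_nonneg (by positivity) (integral_nonneg h0))).1 hkey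

/-- the comparison of the averages, with the sharp constant -/
theorem mean_le_sharp {g g₁ : RMetric (EV n) M} (hn : 1 ≤ n) (g₀ : RMetric (EV n) M) {a b : ℝ}
    (ha : 0 < a) (hb : 0 < b) (h : Between g g₁ a b) {μ μ₁ : Measure M} {m : Measure (UT g)}
    {m₁ : Measure (UT g₁)} (hμ : IsRiemVol g μ) (hμ₁ : IsRiemVol g₁ μ₁) (hm : IsLiouville g μ m)
    (hm₁ : IsLiouville g₁ μ₁ m₁) :
    ∫ p, nrm g₁ g₀ p ∂m₁ ≤ b ^ (n - 1) / a ^ n * ∫ p, nrm g g₀ p ∂m := by
  have := hμ.isFiniteMeasure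
  have := hμ₁.isFiniteMeasure
  have hV := hm.vol_pos
  have hV₁ := hm₁.vol_pos
  rw [hm.2 _ (continuous_nrm g g₀), hm₁.2 _ (continuous_nrm g₁ g₀)]
  have h0 : ∀ x, 0 ≤ sphAvg g (nrm g g₀) x := sphAvg_nonneg fun p => nrm_nonneg g g₀ p
  have hle' := riemVol_le (inv_pos.2 ha) (h.symm ha hb) hμ₁ hμ
  have hvol : μ.real univ ≤ a⁻¹ ^ n * μ₁.real univ := by
    have h1 := hle' univ
    rw [Measure.smul_apply, smul_eq_mul] at h1
    have h2 := ENNReal.toReal_mono (ENNReal.mul_ne_top ENNReal.ofReal_ne_top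
      (measure_ne_top μ₁ univ)) h1
    rwa [ENNReal.toReal_mul, ENNReal.toReal_ofReal (by positivity)] at h2
  have hint := integral_sphAvg_le hn g₀ hb h hμ hμ₁
  have hI0 : 0 ≤ ∫ x, sphAvg g (nrm g g₀) x ∂μ := integral_nonneg h0
  set I := ∫ x, sphAvg g (nrm g g₀) x ∂μ with hId
  set I₁ := ∫ x, sphAvg g₁ (nrm g₁ g₀) x ∂μ₁ with hI₁d
  set V := μ.real univ with hVd
  set V₁ := μ₁.real univ with hV₁d
  have han : 0 < a ^ n := by positivity
  have hV₁' : a ^ n * V ≤ V₁ := by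
    have h1 : a ^ n * V ≤ a ^ n * (a⁻¹ ^ n * V₁) := mul_le_mul_of_nonneg_left hvol han.le
    rwa [← mul_assoc, inv_pow, mul_inv_cancel₀ han.ne', one_mul] at h1
  calc I₁ / V₁ ≤ (b ^ (n - 1) * I) / V₁ := div_le_div_of_nonneg_right hint hV₁.le
    _ ≤ (b ^ (n - 1) * I) / (a ^ n * V) :=
        div_le_div_of_nonneg_left (by positivity) (by positivity) hV₁'
    _ = b ^ (n - 1) / a ^ n * (I / V) := by
        field_simp

/-- the product of the averages for two bilipschitz metrics, with the sharp constant -/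
theorem mul_mean_le_sharp (hn : 1 ≤ n) {g₀ g g₁ : RMetric (EV n) M} {a b : ℝ}
    (ha : 0 < a) (hb : 0 < b) (h : Between g g₁ a b) {μ μ₁ : Measure M}
    {m₀ : Measure (UT g₀)} (hp : IsProbabilityMeasure m₀) {m : Measure (UT g)}
    {m₁ : Measure (UT g₁)} (hμ : IsRiemVol g μ) (hμ₁ : IsRiemVol g₁ μ₁) (hm : IsLiouville g μ m)
    (hm₁ : IsLiouville g₁ μ₁ m₁) :
    (∫ p, nrm g₀ g₁ p ∂m₀) * (∫ p, nrm g₁ g₀ p ∂m₁) ≤
      (b / a) ^ n * ((∫ p, nrm g₀ g p ∂m₀) * (∫ p, nrm g g₀ p ∂m)) := by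
  have h1 := mean_le_sharp hn g₀ ha hb h hμ hμ₁ hm hm₁
  have h2 := mean_le_two (m₀ := m₀) g₀ hb h hp
  have h3 : 0 ≤ ∫ p, nrm g₁ g₀ p ∂m₁ := integral_nonneg fun p => nrm_nonneg g₁ g₀ p
  have h4 : 0 ≤ ∫ p, nrm g₀ g p ∂m₀ := integral_nonneg fun p => nrm_nonneg g₀ g p
  calc (∫ p, nrm g₀ g₁ p ∂m₀) * (∫ p, nrm g₁ g₀ p ∂m₁)
      ≤ (b * ∫ p, nrm g₀ g p ∂m₀) * (b ^ (n - 1) / a ^ n * ∫ p, nrm g g₀ p ∂m) :=
        mul_le_mul h2 h1 h3 (mul_nonneg hb.le h4)
    _ = (b * b ^ (n - 1)) / a ^ n * ((∫ p, nrm g₀ g p ∂m₀) * (∫ p, nrm g g₀ p ∂m)) := by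
        ring
    _ = _ := by
        obtain ⟨k, rfl⟩ : ∃ k, n = k + 1 := ⟨n - 1, by omega⟩
        rw [Nat.add_sub_cancel, ← pow_succ', div_pow]

end Cpt

end Vale.Agent.P207.R2.H327
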