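import Vale.Agent.P207.R2.H327.Gap
import Vale.Agent.P207.R2.H327.Sharp

/-!
# P207: the separation of the entropies from the entropy of the locally symmetric metric
-/

open scoped Manifold ContDiff ENNReal Topology
open Bundle MeasureTheory Set Filter

noncomputable section

namespace Vale.Agent.P207.R2.H327

open Vale.Agent.P207
open Vale.Agent.P255 (RMetric)

/-- the strict inequality between the first and the `n`-th moment -/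
theorem pow_mean_lt {X : Type} [TopologicalSpace X] [CompactSpace X] [MeasurableSpace X]
    [BorelSpace X] (μ : Measure X) [IsFiniteMeasure μ] [μ.IsOpenPosMeasure] {f : X → ℝ}
    (hf : Continuous f) (hf0 : ∀ x, 0 < f x) (hne : ∃ x y, f x ≠ f y) {n : ℕ} (hn : 2 ≤ n) :
    ((∫ x, f x ∂μ) / μ.real univ) ^ n < (∫ x, f x ^ n ∂μ) / μ.real univ := by
  obtain ⟨x₀, y₀, hxy⟩ := id hne
  have : Nonempty X := ⟨x₀⟩
  have hV : 0 < μ.real univ := by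
    refine ENNReal.toReal_pos ?_ (measure_ne_top μ _)
    exact (isOpen_univ.measure_pos μ univ_nonempty).ne'
  have hm0 : 0 ≤ (∫ x, f x ∂μ) / μ.real univ :=
    div_nonneg (integral_nonneg fun x => (hf0 x).le) hV.le
  have hstep : ∀ k : ℕ, 1 ≤ k → (∫ x, f x ∂μ) / μ.real univ * ((∫ x, f x ^ k ∂μ) / μ.real univ) <
      (∫ x, f x ^ (k + 1) ∂μ) / μ.real univ := by
    intro k hk
    have h1 := chebyshev μ hf hf0 hne hk
    rw [div_mul_div_comm, div_lt_div_iff₀ (mul_pos hV hV) hV]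
    have h2 := mul_lt_mul_of_pos_right h1 hV
    calc (∫ x, f x ∂μ) * (∫ x, f x ^ k ∂μ) * μ.real univ
        < μ.real univ * (∫ x, f x ^ (k + 1) ∂μ) * μ.real univ := h2
      _ = (∫ x, f x ^ (k + 1) ∂μ) * (μ.real univ * μ.real univ) := by ring
  have hle : ∀ k : ℕ, 1 ≤ k → ((∫ x, f x ∂μ) / μ.real univ) ^ k ≤
      (∫ x, f x ^ k ∂μ) / μ.real univ := by
    intro k hk
    induction k, hk using Nat.le_induction with
    | base => simp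
    | succ k hk ih =>
      rw [pow_succ']
      exact (mul_le_mul_of_nonneg_left ih hm0).trans (hstep k hk).le
  obtain ⟨k, rfl⟩ : ∃ k, n = k + 1 := ⟨n - 1, by omega⟩
  rw [pow_succ']
  exact (mul_le_mul_of_nonneg_left (hle k (by omega)) hm0).trans_lt (hstep k (by omega))

/-- the factors of the comparison tend to one -/
theorem exists_eps_two {p q s t : ℝ} (hp : p < s) (hq : q < t) (n : ℕ) :
    ∃ ε : ℝ, 0 < ε ∧ ε < 1 ∧ Real.sqrt (1 + ε) * p < s ∧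
      Real.sqrt (1 + ε) ^ (n - 1) / Real.sqrt (1 - ε) ^ n * q < t := by
  have h1 : ContinuousAt (fun ε : ℝ => Real.sqrt (1 + ε)) 0 := by fun_prop
  have h2 : ContinuousAt (fun ε : ℝ => Real.sqrt (1 - ε)) 0 := by fun_prop
  have hc1 : ContinuousAt (fun ε : ℝ => Real.sqrt (1 + ε) * p) 0 := h1.mul continuousAt_const
  have hc2 : ContinuousAt (fun ε : ℝ =>
      Real.sqrt (1 + ε) ^ (n - 1) / Real.sqrt (1 - ε) ^ n * q) 0 :=
    ((h1.pow _).div (h2.pow _) (by simp)).mul continuousAt_const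
  have e1 : (fun ε : ℝ => Real.sqrt (1 + ε) * p) 0 < s := by simpa using hp
  have e2 : (fun ε : ℝ => Real.sqrt (1 + ε) ^ (n - 1) / Real.sqrt (1 - ε) ^ n * q) 0 < t := by
    simpa using hq
  have h3 := hc1.eventually (gt_mem_nhds e1)
  have h4 := hc2.eventually (gt_mem_nhds e2)
  have h5 : ∀ᶠ ε : ℝ in 𝓝 0, ε < 1 := gt_mem_nhds one_pos
  have h6 := ((h3.and (h4.and h5)).filter_mono (nhdsWithin_le_nhds (s := Ioi (0 : ℝ))))
  obtain ⟨ε, ⟨h7, h8, h9⟩, h10⟩ := (h6.and self_mem_nhdsWithin).exists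
  exact ⟨ε, h10, h9, h7, h8⟩

variable {n : ℕ} {M : Type} [TopologicalSpace M] [ChartedSpace (EV n) M]
  [IsManifold 𝓘(ℝ, EV n) ∞ M]

theorem Conf.symm {g g' : RMetric (EV n) M} {u : M → ℝ} (h : Conf g g' u) :
    Conf g' g (fun x => - u x) := by
  intro x v w
  rw [h x v w, ← mul_assoc, ← Real.exp_add]
  simp

variable [CompactSpace M] [T2Space M] [MeasurableSpace M] [BorelSpace M]

/-- the volume of a conformal metric -/
theorem vol_conf {g g' : RMetric (EV n) M} {u : M → ℝ} (hu : Continuous u)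
    (h : Conf g g' u) {μ μ' : Measure M} (hμ : IsRiemVol g μ) (hμ' : IsRiemVol g' μ') :
    μ'.real univ = ∫ x, Real.exp (u x) ^ n ∂μ := by
  have hE : Continuous fun x => Real.exp (u x) ^ n := (Real.continuous_exp.comp hu).pow n
  rw [hμ'.unique (isRiemVol_conf hu h hμ), Measure.real, withDensity_apply _ MeasurableSet.univ,
    Measure.restrict_univ, integral_eq_lintegral_of_nonneg_ae
      (ae_of_all _ fun x => by positivity) hE.measurable.aestronglyMeasurable]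

/-- the average over the conformal class, normalized by the volume -/
theorem mean_conf_lt_scale (hn : 2 ≤ n) {g g' : RMetric (EV n) M} {u : M → ℝ} (hu : Continuous u)
    (h : Conf g g' u) (hne : ∃ x y, u x ≠ u y) {μ μ' : Measure M} {m : Measure (UT g)}
    {m' : Measure (UT g')} (hμ : IsRiemVol g μ) (hμ' : IsRiemVol g' μ') (hm : IsLiouville g μ m)
    (hm' : IsLiouville g' μ' m') {l : ℝ} (hl : 0 < l)
    (hv : μ'.real univ = l ^ n * μ.real univ) :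
    ∫ p, nrm g g' p ∂m < l := by
  have hfin := hμ.isFiniteMeasure
  have hop := hμ.isOpenPosMeasure
  have hE : Continuous fun x => Real.exp (u x) := Real.continuous_exp.comp hu
  have hV := hm.vol_pos
  have hne' : ∃ x y, Real.exp (u x) ≠ Real.exp (u y) := by
    obtain ⟨x, y, hxy⟩ := hne
    exact ⟨x, y, fun he => hxy (Real.exp_injective he)⟩
  have h1 := pow_mean_lt μ hE (fun x => Real.exp_pos _) hne' hn
  rw [← vol_conf hu h hμ hμ', hv, mul_div_assoc, div_self hV.ne', mul_one] at h1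
  rw [(mean_conf (by omega) hu h hμ hμ' hm hm').1]
  exact lt_of_pow_lt_pow_left₀ n hl.le h1

/-- the two averages in the conformal class, normalized by the volume -/
theorem mean_conf_lt_scale_two (hn : 2 ≤ n) {g g' : RMetric (EV n) M} {u : M → ℝ}
    (hu : Continuous u) (h : Conf g g' u) (hne : ∃ x y, u x ≠ u y) {μ μ' : Measure M}
    {m : Measure (UT g)} {m' : Measure (UT g')} (hμ : IsRiemVol g μ) (hμ' : IsRiemVol g' μ')
    (hm : IsLiouville g μ m) (hm' : IsLiouville g' μ' m') {l : ℝ} (hl : 0 < l)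
    (hv : μ'.real univ = l ^ n * μ.real univ) :
    ∫ p, nrm g g' p ∂m < l ∧ ∫ p, nrm g' g p ∂m' < l⁻¹ := by
  refine ⟨mean_conf_lt_scale hn hu h hne hμ hμ' hm hm' hl hv, ?_⟩
  refine mean_conf_lt_scale hn hu.neg h.symm ?_ hμ' hμ hm' hm (inv_pos.2 hl) ?_
  · obtain ⟨x, y, hxy⟩ := hne
    exact ⟨x, y, fun he => hxy (neg_injective he)⟩
  · rw [hv, inv_pow, ← mul_assoc, inv_mul_cancel₀ (pow_pos hl n).ne', one_mul]

/-- the average over the Kähler class -/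
theorem mean_kaehler_lt_scale (hn : 1 ≤ n) {g₀ g₁ : RMetric (EV n) M}
    {φ₀ : ℝ → UT g₀ → UT g₀} {μ₀ : Measure M} {m₀ : Measure (UT g₀)}
    (hφ₀ : IsGeoFlow g₀ φ₀) (hμ₀ : IsRiemVol g₀ μ₀) (hm₀ : IsLiouville g₀ μ₀ m₀)
    {J : EndField n M} {c : ℝ} (hK₀ : IsKaehler g₀ J) (hK₁ : IsKaehler g₁ J)
    (hc : SameClass g₀ g₁ J c) (hne : ¬ ∀ x v w, g₁.inner x v w = c * g₀.inner x v w) :
    0 < c ∧ ∫ p, nrm g₀ g₁ p ∂m₀ < Real.sqrt c := by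
  have := hm₀.1
  have hB₀ := integral_nrm_sq hn hφ₀ hμ₀ hm₀ hK₀ hK₁ hc
  obtain ⟨hc0, hC₀, -⟩ := integral_nrm_le hB₀
  refine ⟨hc0, ?_⟩
  by_contra hcon
  push Not at hcon
  apply hne
  have h := homothetic_of_eq hn hμ₀ hm₀ (g₀ := g₀) (g₁ := g₁) (by rw [hB₀]; exact hcon)
  rw [hB₀] at h
  exact h

/-- the two averages over the Kähler class -/
theorem mean_kaehler_lt_scale_two (hn : 1 ≤ n) {g₀ g₁ : RMetric (EV n) M}
    {φ₀ : ℝ → UT g₀ → UT g₀} {φ₁ : ℝ → UT g₁ → UT g₁} {μ₀ μ₁ : Measure M}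
    {m₀ : Measure (UT g₀)} {m₁ : Measure (UT g₁)}
    (hφ₀ : IsGeoFlow g₀ φ₀) (hφ₁ : IsGeoFlow g₁ φ₁)
    (hμ₀ : IsRiemVol g₀ μ₀) (hμ₁ : IsRiemVol g₁ μ₁)
    (hm₀ : IsLiouville g₀ μ₀ m₀) (hm₁ : IsLiouville g₁ μ₁ m₁)
    {J : EndField n M} {c : ℝ} (hK₀ : IsKaehler g₀ J) (hK₁ : IsKaehler g₁ J)
    (hc : SameClass g₀ g₁ J c) (hne : ¬ ∀ x v w, g₁.inner x v w = c * g₀.inner x v w) :
    0 < Real.sqrt c ∧ ∫ p, nrm g₀ g₁ p ∂m₀ < Real.sqrt c ∧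
      ∫ p, nrm g₁ g₀ p ∂m₁ < (Real.sqrt c)⁻¹ := by
  obtain ⟨hc0, h1⟩ := mean_kaehler_lt_scale hn hφ₀ hμ₀ hm₀ hK₀ hK₁ hc hne
  obtain ⟨-, h2⟩ := mean_kaehler_lt_scale hn hφ₁ hμ₁ hm₁ hK₁ hK₀ (hc.symm hc0.ne') (fun h => by
    apply hne
    intro x v w
    rw [h x v w, ← mul_assoc, mul_inv_cancel₀ hc0.ne', one_mul])
  rw [Real.sqrt_inv] at h2
  exact ⟨Real.sqrt_pos.2 hc0, h1, h2⟩

/-- the two averages, if the product of the averages of the squares is at most one -/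
theorem mean_sq_lt_scale_two (hn : 1 ≤ n) {g₀ g₁ : RMetric (EV n) M} {μ₀ μ₁ : Measure M}
    {m₀ : Measure (UT g₀)} {m₁ : Measure (UT g₁)}
    (hμ₀ : IsRiemVol g₀ μ₀) (hμ₁ : IsRiemVol g₁ μ₁)
    (hm₀ : IsLiouville g₀ μ₀ m₀) (hm₁ : IsLiouville g₁ μ₁ m₁)
    (h : (∫ p, nrm g₀ g₁ p ^ 2 ∂m₀) * (∫ p, nrm g₁ g₀ p ^ 2 ∂m₁) ≤ 1)
    (hne : ¬ ∃ c : ℝ, ∀ x v w, g₁.inner x v w = c * g₀.inner x v w) :
    0 < Real.sqrt (∫ p, nrm g₀ g₁ p ^ 2 ∂m₀) ∧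
      ∫ p, nrm g₀ g₁ p ∂m₀ < Real.sqrt (∫ p, nrm g₀ g₁ p ^ 2 ∂m₀) ∧
      ∫ p, nrm g₁ g₀ p ∂m₁ < (Real.sqrt (∫ p, nrm g₀ g₁ p ^ 2 ∂m₀))⁻¹ := by
  have := hm₀.1
  have := hm₁.1
  obtain ⟨hB₀, -, -⟩ := integral_nrm_le (g₀ := g₀) (g₁ := g₁) (ν := m₀) rfl
  obtain ⟨hB₁, -, -⟩ := integral_nrm_le (g₀ := g₁) (g₁ := g₀) (ν := m₁) rfl
  have h0 : ∫ p, nrm g₀ g₁ p ∂m₀ < Real.sqrt (∫ p, nrm g₀ g₁ p ^ 2 ∂m₀) := by
    by_contra hcon
    push Not at hcon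
    exact hne ⟨_, homothetic_of_eq hn hμ₀ hm₀ hcon⟩
  have h1 : ∫ p, nrm g₁ g₀ p ∂m₁ < Real.sqrt (∫ p, nrm g₁ g₀ p ^ 2 ∂m₁) := by
    by_contra hcon
    push Not at hcon
    have h2 := homothetic_of_eq hn hμ₁ hm₁ hcon
    refine hne ⟨(∫ p, nrm g₁ g₀ p ^ 2 ∂m₁)⁻¹, fun x v w => ?_⟩
    rw [h2 x v w, ← mul_assoc, inv_mul_cancel₀ hB₁.ne', one_mul]
  refine ⟨Real.sqrt_pos.2 hB₀, h0, h1.trans_le ?_⟩
  rw [← Real.sqrt_inv]
  apply Real.sqrt_le_sqrt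
  rw [le_inv_comm₀ hB₁ hB₀, ← one_div, le_div_iff₀ hB₁]
  exact h

/-- the separation of the entropies -/
theorem separation [ConnectedSpace M] (hn : 2 ≤ n) {g₀ g₁ : RMetric (EV n) M}
    (hN₀ : NegCurvature g₀) (hN₁ : NegCurvature g₁)
    {φ₀ : ℝ → UT g₀ → UT g₀} {φ₁ : ℝ → UT g₁ → UT g₁} {μ₀ μ₁ : Measure M}
    {m₀ : Measure (UT g₀)} {m₁ : Measure (UT g₁)}
    (hφ₀ : IsGeoFlow g₀ φ₀) (hφ₁ : IsGeoFlow g₁ φ₁)
    (hμ₀ : IsRiemVol g₀ μ₀) (hμ₁ : IsRiemVol g₁ μ₁)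
    (hm₀ : IsLiouville g₀ μ₀ m₀) (hm₁ : IsLiouville g₁ μ₁ m₁)
    (e₀ : ksEntropy m₀ (φ₀ 1) = topEntropy (φ₀ 1)) {l : ℝ} (hl : 0 < l)
    (h₀ : ∫ p, nrm g₀ g₁ p ∂m₀ < l) (h₁ : ∫ p, nrm g₁ g₀ p ∂m₁ < l⁻¹) :
    ENNReal.ofReal l * ksEntropy m₁ (φ₁ 1) < topEntropy (φ₀ 1) ∧
      topEntropy (φ₀ 1) < ENNReal.ofReal l * topEntropy (φ₁ 1) ∧ ¬ LocSymmetric g₁ := by
  obtain ⟨hS₀, hA₀, hF₀⟩ := compare (by omega) hN₀ hN₁ hφ₀ hφ₁ hμ₀ hm₀
  obtain ⟨hS₁, hA₁, hF₁⟩ := compare (by omega) hN₁ hN₀ hφ₁ hφ₀ hμ₁ hm₁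
  rw [e₀] at hS₀ hF₀
  have hp₀ := topEntropy_pos hn hφ₀ hN₀
  have hp₁ := topEntropy_pos hn hφ₁ hN₁
  have hl0 : ENNReal.ofReal l ≠ 0 := by simpa using hl
  have r1 : ENNReal.ofReal l * ksEntropy m₁ (φ₁ 1) < topEntropy (φ₀ 1) := by
    have h2 : l * ∫ p, nrm g₁ g₀ p ∂m₁ < 1 := by
      calc l * ∫ p, nrm g₁ g₀ p ∂m₁ < l * l⁻¹ := mul_lt_mul_of_pos_left h₁ hl
        _ = 1 := mul_inv_cancel₀ hl.ne'
    have h3 : ENNReal.ofReal (l * ∫ p, nrm g₁ g₀ p ∂m₁) < 1 := by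
      rw [← not_le, ENNReal.one_le_ofReal, not_le]
      exact h2
    calc ENNReal.ofReal l * ksEntropy m₁ (φ₁ 1)
        ≤ ENNReal.ofReal l * (ENNReal.ofReal (∫ p, nrm g₁ g₀ p ∂m₁) * topEntropy (φ₀ 1)) :=
          mul_le_mul_right hS₁ _
      _ = ENNReal.ofReal (l * ∫ p, nrm g₁ g₀ p ∂m₁) * topEntropy (φ₀ 1) := by
          rw [← mul_assoc, ← ENNReal.ofReal_mul hl.le]
      _ < 1 * topEntropy (φ₀ 1) := ENNReal.mul_lt_mul_left hp₀.ne' hF₀ h3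
      _ = topEntropy (φ₀ 1) := one_mul _
  have r2 : topEntropy (φ₀ 1) < ENNReal.ofReal l * topEntropy (φ₁ 1) := by
    rcases eq_or_ne (topEntropy (φ₁ 1)) ⊤ with ht | ht
    · rw [ht, ENNReal.mul_top hl0]
      exact lt_top_iff_ne_top.2 hF₀
    · refine hS₀.trans_lt (ENNReal.mul_lt_mul_left hp₁.ne' ht ?_)
      exact (ENNReal.ofReal_lt_ofReal_iff hl).2 h₀
  refine ⟨r1, r2, fun hL => ?_⟩
  rw [ksEntropy_eq_of_locSymmetric hn hφ₁ hμ₁ hm₁ hN₁ hL] at r1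
  exact absurd (r1.trans r2) (lt_irrefl _)

end Vale.Agent.P207.R2.H327
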